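/-!
# Row 37 (S0050, S0051): O(1/k)-thin spanning trees in polynomial time.  Route.

One ROUND (`CRound.solv_round`) turns a multigraph with partition connectivity `2k + Δ` into a subgraph with partition
connectivity `k` containing at most a `1/2 + 1000/q` fraction of every cut (`q^12 ≤ Δ`, `2k ≤ qΔ`).  `CTree` iterates the rounds
along the schedule `kp`, `Main` adds preprocessing and codes, `Main50` derives the existence statement.

* Stage 1 (`solv_cert`): find a base `H` of the `2k`-fold graphic matroid (`Ind`, `Base`) and shortcuts `w ≥ 0` with the certificate
  `Cert`: on every cut, `L_w` plus the resistances of the `H`-edges in `Γ + L_w` are a `1/q²` fraction.  For fixed `H` a grid descent on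
  the barrier potential `Phi1` gives the certificate or a dual matrix (`S1*`).  Follow the leader (`FTL`): add the dual lengths to the
  costs `c`, take the greedy base for `c`, repeat; the KEY LEMMA `kl` (nets + Foster, with the number of net points bounded by the
  geometric lemma `gl`: forests, erosion, hub surgery) bounds the number of repetitions.
* Stage 2 (`solv_half`): round `(1/2) χ_H` inside the base polytope while keeping `M2` positive definite; potential
  `Phi2 = tr M⁻¹ + tr W⁻¹`, a trace argument (`S2Core`) gives a direction of negative curvature on the face, found by power iteration on a
  finite-difference Hessian (`Pow`); the integer measure `msr` decreases (`S2Prog`).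
* Code: `DPT`, `RPT`, `VPT`, `MPT`, `En`, `Solv` (`DepDefs`): polynomial time on promise types, exact rational arithmetic; a promise
  algorithm is made total once (`exists_total`).

Every file states its lemmas and sketches the proofs in its header.
-/
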